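import Vale.Agent.P022G.Col0
import Vale.Agent.P022G.Rel.ToPt
import Vale.Agent.P022G.Pt.T

/-!
# P022G: the ring data of the patching argument at a curve
-/

set_option linter.all false

noncomputable section

namespace Vale.Agent.P022G.Inst

open MvPowerSeries Vale.Agent.P022G.R Vale.Agent.P022G.Loc
open Vale.Agent.P022 Vale.Agent.P022D
open Vale.Agent.P022D.Sel (M2)
open Vale.Agent.P022D.Core (PS io y1)
open Vale.Agent.P022E.Loc (Pl)

/-- the ring with roots as an algebra -/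
@[reducible] def ioAlg (O σ : Type) [CommRing O] (r : ℕ) :
    Algebra (PS O σ) (PS O (σ ⊕ Fin r)) := (io O σ r).toAlgebra

scoped[Vale.Agent.P022G.Inst] attribute [instance] Vale.Agent.P022G.Inst.ioAlg

variable {O F : Type} [CommRing O] [Field F] {S : Dat O F} {L : Pl O} {β : Type}
  {τ ι' : β → Type} (K : Kx O β τ ι' L.C) {ι : Type} (G : Gs S L K.g ι) (r : ℕ)

variable (S ι) in
/-- the blocks inside the framed ring -/
def DK : Rl.Dat O (V0 τ L ι S.T r) β L.C τ ι' :=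
  K.D (fun γ => (γ : ℕ)) (Rs (ι ⊕ Fin r) S.T)

/-- the coefficients of the polynomial of the root -/
def al (i : Fin r) : PS O (V0 τ L ι S.T r) := (ZS K G r (Sum.inr i)).trace - 2

def be (i : Fin r) : PS O (V0 τ L ι S.T r) :=
  (ZS K G r (Sum.inr i)).det - (ZS K G r (Sum.inr i)).trace + 1

/-- **the ring data** -/
def XR (ϖ : O) {κ : Type} (k : κ → PS O (V0 τ L ι S.T r))
    (𝔢 : Ideal (PS O (Sy (ι ⊕ Fin r) ⊕ Fin r))) (𝔭 : Ideal (PS O (V0 τ L ι S.T r ⊕ Fin r)))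
    (top : ℕ) : Pt.RD (PS O (Sy (ι ⊕ Fin r) ⊕ Fin r)) (PS O (V0 τ L ι S.T r))
      (PS O (V0 τ L ι S.T r ⊕ Fin r)) L.C (Fin r) where
  ψ := psiS O S L τ ι r
  𝔭 := 𝔭
  𝔱 := (t0 K G r).map (io O _ r)
  𝔞 := rk0 (G.rcr r) Sum.inl (Sum.inl G.i0)
  𝔢 := 𝔢
  E := Rel.IK (DK S K ι r) k
  π := C ϖ
  π₀ := C ϖ
  y := y1 O _
  α := al K G r
  β := be K G r
  𝔯 := Ideal.span (Set.range fun i =>
    y1 O _ i ^ 2 - io O _ r (al K G r i) * y1 O _ i + io O _ r (be K G r i))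
  τP l := tauP (G.rcr r) Sum.inl (Sum.inl (G.iτ l))
  DP l := trS (G.rcr r) Sum.inl (Sum.inl (G.iφ l))
  IP J := IPt (G.rcr r) Sum.inl (fun l => Sum.inl (G.iτ l)) (fun l => Sum.inl (G.iφ l)) J
  τl := (DK S K ι r).tl
  Dl γ := ((DK S K ι r).Φ γ).trace
  IJ := Rel.IJ (DK S K ι r)
  a := 4 * S.T.card - 1
  d := top

/-- the framed curve in the ring with roots: the roots vanish -/
def Cs {V : Type} [CommRing V] (j : O →+* V) (ρ : GQ →* GL (Fin 2) V)
    (θ : PS O (V0 τ L ι S.T r ⊕ Fin r) →+* V) : Prop :=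
  Hm j (Sum.elim (v0 K G r j (fun g => (ρ g : M2 V)) (fun _ => 1) (fun _ => 1) fun _ => 1)
    fun _ => 0) θ

variable (O ι) in
/-- the symbols of level zero inside the ring which acts on the modules -/
def eA : PS O (Sy ι) →+* PS O (Sy (ι ⊕ Fin r) ⊕ Fin r) :=
  (rename (R := O) ((Function.Embedding.inl.sumMap (Function.Embedding.inl.sumMap
    (Function.Embedding.inl.prodMap Function.Embedding.inl)) : Sy ι ↪ Sy (ι ⊕ Fin r)).trans
      Function.Embedding.inl)).toRingHom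

/-- the elements which vanish at level zero: roots and auxiliary generators -/
def z0 : Ideal (PS O (Sy (ι ⊕ Fin r) ⊕ Fin r)) :=
  Ideal.span (Set.range (fun i : Fin r => X (Sum.inr i)) ∪
    ⋃ i : Fin r, tauP (G.rcr r) Sum.inl (Sum.inr i))

end Vale.Agent.P022G.Inst
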